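import Vale.Agent.P181.O2.Defs

set_option autoImplicit false

/-!
# P181, O2, counting half: the literals

`mu = (m0; tau)`: weight below row one, `m0 = mu 0` (row two), `tau = tl mu`, `t = ∑ tau`.
A letter is a pair `(i, u)`: `i` its degree in row two, `u` its degree in the tail. A state is a
multiset `U` of letters `≠ (0, 0)`; the letter is plain if `u = 0`. `cc m tau U` is the
multiplicity of `S_tau` in `⊗ Sym^(mult) (Sym^u W')`.
-/

open MvPolynomial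

namespace Vale.Agent.P181.O2

open Vale.Agent.P181.T4 (HW)
open Vale.Agent.P181.SZ (nn PT tl)

/-- Highest weight polynomials of weight `mu` in the columns `σ`; the column `j` has the label
`l j = (i, u)` and degree `u`; invariant under the permutations which preserve the labels. -/
noncomputable def PL (m : ℕ) (σ : Type) [Fintype σ] (l : σ → ℕ × ℕ) (mu : Fin m → ℕ) :
    Submodule ℂ (MvPolynomial (Fin m × σ) ℂ) where
  carrier := {f | f ∈ HW m σ mu ∧ (∀ v, coeff v f ≠ 0 → ∀ j, ∑ i, v (i, j) = (l j).2) ∧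
    ∀ e : Equiv.Perm σ, (∀ j, l (e j) = l j) →
      rename (fun p : Fin m × σ => (p.1, e p.2)) f = f}
  zero_mem' := ⟨zero_mem _, fun v hv => absurd (coeff_zero v) hv, fun e _ => map_zero _⟩
  add_mem' := by
    rintro f g ⟨hf1, hf2, hf3⟩ ⟨hg1, hg2, hg3⟩
    refine ⟨add_mem hf1 hg1, fun v hv j => ?_, fun e he => by rw [map_add, hf3 e he, hg3 e he]⟩
    rw [coeff_add] at hv
    by_cases h : coeff v f = 0
    · rw [h, zero_add] at hv
      exact hg2 v hv j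
    · exact hf2 v h j
  smul_mem' := by
    rintro c f ⟨hf1, hf2, hf3⟩
    refine ⟨Submodule.smul_mem _ c hf1, fun v hv j => ?_, fun e he => ?_⟩
    · rw [coeff_smul, smul_eq_mul] at hv
      exact hf2 v (right_ne_zero_of_mul hv) j
    · rw [map_smul, hf3 e he]

/-- The multiplicity of `S_mu` in the state `U`. -/
noncomputable def cc (m : ℕ) (mu : Fin m → ℕ) (U : Multiset (ℕ × ℕ)) : ℕ :=
  Module.finrank ℂ (PL m (Fin U.toList.length) (fun j => U.toList.get j) mu)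

/-- The same with one more letter `Sym^2`, of a fresh colour. -/
noncomputable def cc2 (m : ℕ) (mu : Fin m → ℕ) (U : Multiset (ℕ × ℕ)) : ℕ :=
  cc m mu (((U.map Prod.fst).sum + 1, 2) ::ₘ U)

open scoped Classical in
/-- The states of row two degree `N` and tail degree `t`. -/
noncomputable def US (N t : ℕ) : Finset (Multiset (ℕ × ℕ)) :=
  (((N + t) • ((Finset.range (N + 1) ×ˢ Finset.range (t + 1)).val)).powerset.toFinset).filter
    (fun U => (0, 0) ∉ U ∧ (U.map Prod.fst).sum = N ∧ (U.map Prod.snd).sum = t)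

/-- The sizes of the letters. -/
def szs (U : Multiset (ℕ × ℕ)) : Multiset ℕ := U.map fun p => p.1 + p.2

/-- The good types (`Good` of `O2/Defs.lean`) with all sizes `≥ 2`. -/
def GoodK (h : ℕ) (K : Multiset ℕ) : Prop := Good h K ∧ ∀ x ∈ K, 2 ≤ x

/-- The small states. -/
def SmallU (q : ℕ) (U : Multiset (ℕ × ℕ)) : Prop :=
  (∀ p ∈ U, p.1 ≤ 10 * q) ∧ Multiset.card U ≤ 11 * q

/-! ### Properties of a weight -/

/-- The weight does not see the plain letters. -/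
def PlainW (c : Multiset (ℕ × ℕ) → ℕ) : Prop := ∀ (y : ℕ) (U : Multiset (ℕ × ℕ)),
  c ((y, 0) ::ₘ U) = c U

/-- A letter may get a fresh colour. -/
def FreshW (c : Multiset (ℕ × ℕ) → ℕ) : Prop := ∀ (i i' u : ℕ) (U : Multiset (ℕ × ℕ)),
  (i', u) ∉ U → c ((i, u) ::ₘ U) ≤ c ((i', u) ::ₘ U)

/-- All colours may be shifted by one. -/
def ShiftW (c : Multiset (ℕ × ℕ) → ℕ) : Prop := ∀ U : Multiset (ℕ × ℕ),
  c U ≤ c (U.map fun p => (p.1 + 1, p.2))

open scoped Classical in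
/-- The pull-out of a letter `Sym^2` from one column or from two columns, which get fresh
colours. -/
def PullW (c c2 : Multiset (ℕ × ℕ) → ℕ) : Prop := ∀ (U : Multiset (ℕ × ℕ)) (x x' : ℕ), x ≠ x' →
  (∀ p ∈ U, 0 < p.2 → p.1 ≠ x ∧ p.1 ≠ x') →
  c U ≤ ∑ p ∈ U.toFinset.filter (fun p => 2 ≤ p.2), c2 ((x, p.2 - 2) ::ₘ U.erase p) +
    ∑ p ∈ U.toFinset.filter (fun p => 1 ≤ p.2),
      ∑ p' ∈ (U.erase p).toFinset.filter (fun p => 1 ≤ p.2),
        c2 ((x, p.2 - 1) ::ₘ (x', p'.2 - 1) ::ₘ (U.erase p).erase p')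

/-! ### Algebra -/

/-- **(T)** transport: only the multiset of the labels of the columns of positive degree
matters. -/
def TransL : Prop := ∀ (m : ℕ) (σ : Type) [Fintype σ] (l : σ → ℕ × ℕ) (mu : Fin m → ℕ),
  Module.finrank ℂ (PL m σ l mu) =
    cc m mu ((Finset.univ.val.map l).filter (fun p => 0 < p.2))

/-- **(W1)** from (T). -/
def PlainC : Prop := ∀ (m : ℕ) (mu : Fin m → ℕ), PlainW (cc m mu) ∧ PlainW (cc2 m mu)

/-- **(W2)** from (T): inclusion of spaces. -/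
def FreshC : Prop := ∀ (m : ℕ) (mu : Fin m → ℕ), FreshW (cc m mu)

/-- **(W3)** from (T): the same space. -/
def ShiftC : Prop := ∀ (m : ℕ) (mu : Fin m → ℕ), ShiftW (cc2 m mu)

/-- **(W4)** `P ↦ ((v·∂_j)(v·∂_k) P)_(j ≤ k)` is injective if `tau_1 ≥ 2`. -/
def PullC : Prop := ∀ (m : ℕ) (mu : Fin (m + 1) → ℕ), 2 ≤ mu 0 →
  PullW (cc (m + 1) mu) (cc2 (m + 1) mu)

open scoped Classical in
/-- **(B1)** product model, upper bound. -/
def ProdUp : Prop := ∀ (m : ℕ) (mu : Fin (m + 1) → ℕ) (K : Multiset ℕ), (∀ x ∈ K, 0 < x) →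
  nn (m + 1) mu K ≤ ∑ U ∈ (US (mu 0) (∑ i, tl mu i)).filter (fun U => szs U = K), cc m (tl mu) U

open scoped Classical in
/-- **(B2')** product model, lower bound; the strip letter is `z` itself:
`P ↦ z_0 ^ a P(v_u - (v_0 / z_0) z_u; x_u - (x_0 / z_0) z_u)`, no further letter is needed. -/
def ProdLow : Prop := ∀ (n a : ℕ) (mu : Fin (n + 1) → ℕ) (k : Multiset ℕ), 2 ≤ ∑ i, tl mu i →
  ∑ i, tl mu i ≤ a → a ≤ mu 0 → (∀ x ∈ k, 0 < x) →
  ∑ U ∈ (US (mu 0 - a) (∑ i, tl mu i - 2)).filter (fun U => szs U = k), cc2 n (tl mu) U ≤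
    n2 (n + 1) a mu k

/-! ### Pure counting -/

open scoped Classical in
/-- **(E)** the errors. -/
def ErrC : Prop := ∀ (c : Multiset (ℕ × ℕ) → ℕ), PlainW c → FreshW c →
  ∀ a q t m0 N w : ℕ, 1 ≤ q → t ≤ q → 1000 * q ≤ a → m0 = N + a + 56 * q → w = m0 + t →
  ∑ U ∈ (US m0 t).filter (fun U => ErrK (60 * q) a (szs U)), c U ≤
    6 * (w + 1) ^ 6 * ∑ U ∈ US N t, c U

open scoped Classical in
/-- **(H)** half of the states are small. -/
def HalfC : Prop := ∀ (c : Multiset (ℕ × ℕ) → ℕ), PlainW c → FreshW c →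
  ∀ q t N w z j : ℕ, 1 ≤ q → t ≤ q → N + t ≤ w → 2 ≤ w → 256 * w ≤ z ^ 2 → j * z ≤ 9 * q →
  6 * (w + 1) ^ 3 ≤ 5 ^ j →
  ∑ U ∈ US N t, c U ≤ 2 * ∑ U ∈ (US N t).filter (SmallU q), c U

open scoped Classical in
/-- **(G)** the gain. -/
def GainC : Prop := ∀ (c c2 : Multiset (ℕ × ℕ) → ℕ), PullW c c2 → PlainW c2 → ShiftW c2 →
  ∀ a q t N w : ℕ, 2 ≤ t → t ≤ q → 10 ≤ q → 1000 * q ≤ a → a ≤ w → N + 20 * q ≤ w →
  ∑ U ∈ (US N t).filter (SmallU q), c U ≤
    (w + 2) ^ 8 * ∑ U ∈ (US (N + 20 * q) (t - 2)).filter (fun U => GoodK (60 * q) (szs U)), c2 U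

open scoped Classical in
/-- **(Z)** the result of the counting half. -/
def CountC : Prop := ∀ (m : ℕ) (tau : Fin (m + 1) → ℕ), 2 ≤ tau 0 →
  ∀ a q t m0 w z j : ℕ, t = ∑ i, tau i → 10 ≤ q → t ≤ q → 1000 * q ≤ a → w = m0 + t →
  2 * a ≤ w → 256 * w ≤ z ^ 2 → j * z ≤ 9 * q → 12 * (w + 2) ^ 14 ≤ 5 ^ j →
  ∑ U ∈ (US m0 t).filter (fun U => ErrK (60 * q) a (szs U)), cc (m + 1) tau U ≤
    ∑ U ∈ (US (m0 - a) (t - 2)).filter (fun U => GoodK (60 * q) (szs U)), cc2 (m + 1) tau U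

end Vale.Agent.P181.O2
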