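import Vale.Agent.P181.SZR1a.TI
import Vale.Agent.P181.SZ.Defs

set_option autoImplicit false

/-!
# P181, O2: few cells below row two, `b > a`: the literals of the algebra half

`w = ∑ i, mu i` is the number of cells below row one, row `0` of `mu` is row two of the shape, the
rows `≥ 1` of `mu` are the tail. `TI a b m mu` : translation invariant symmetric highest weight
polynomials in `a` points, of degree `≤ b` in each point. `nn`, `PT` as in `SZ.Defs`.
-/

open MvPolynomial

namespace Vale.Agent.P181.O2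

open Vale.Agent.P181.T4 (HW)
open Vale.Agent.P181.SZ (nn PT PK TI tl)

/-- At most `h` letters, all of size at most `h`. -/
def Good (h : ℕ) (k : Multiset ℕ) : Prop := Multiset.card k ≤ h ∧ ∀ y ∈ k, y ≤ h

/-- A letter of size `x`, the other letters are good. -/
def LetK (h x : ℕ) (K : Multiset ℕ) : Prop := x ∈ K ∧ Good h (K.erase x)

/-- A letter larger than `a`, the other letters are not good. -/
def ErrK (h a : ℕ) (K : Multiset ℕ) : Prop := ∃ x ∈ K, a < x ∧ ¬ Good h (K.erase x)

/-- `z · ∂_v`, `z = none`, `v = some none`. -/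
noncomputable def zv {m : ℕ} {σ : Type} (f : MvPolynomial (Fin m × Option (Option σ)) ℂ) :
    MvPolynomial (Fin m × Option (Option σ)) ℂ :=
  ∑ i : Fin m, X (i, none) * pderiv (R := ℂ) (i, some none) f

/-- The highest weight polynomials of weight `mu` in the columns `z = none` (degree `a`),
`v = some none` (degree `2`) and `some (some j)` (degree `d j`), invariant under the permutations
of the columns `some (some j)` which preserve `d`, and killed by `z · ∂_v`. -/
noncomputable def PG (m : ℕ) (σ : Type) [Fintype σ] (d : σ → ℕ) (a : ℕ) (mu : Fin m → ℕ) :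
    Submodule ℂ (MvPolynomial (Fin m × Option (Option σ)) ℂ) where
  carrier := {f | f ∈ HW m (Option (Option σ)) mu ∧
    (∀ v, coeff v f ≠ 0 → ∑ i, v (i, none) = a ∧ ∑ i, v (i, some none) = 2 ∧
      ∀ j, ∑ i, v (i, some (some j)) = d j) ∧
    (∀ e : Equiv.Perm σ, (∀ j, d (e j) = d j) →
      rename (fun p : Fin m × Option (Option σ) => (p.1, p.2.map (Option.map e))) f = f) ∧
    zv f = 0}
  zero_mem' := ⟨zero_mem _, fun v hv => absurd (coeff_zero v) hv, fun e _ => map_zero _,
    Finset.sum_eq_zero fun i _ => by rw [map_zero, mul_zero]⟩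
  add_mem' := by
    rintro f g ⟨hf1, hf2, hf3, hf4⟩ ⟨hg1, hg2, hg3, hg4⟩
    refine ⟨add_mem hf1 hg1, fun v hv => ?_, fun e he => by rw [map_add, hf3 e he, hg3 e he], ?_⟩
    · rw [coeff_add] at hv
      by_cases h : coeff v f = 0
      · rw [h, zero_add] at hv
        exact hg2 v hv
      · exact hf2 v h
    · have h : zv (f + g) = zv f + zv g := by
        unfold zv
        rw [← Finset.sum_add_distrib]
        exact Finset.sum_congr rfl fun i _ => by rw [map_add, mul_add]
      rw [h, hf4, hg4, add_zero]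
  smul_mem' := by
    rintro c f ⟨hf1, hf2, hf3, hf4⟩
    refine ⟨Submodule.smul_mem _ c hf1, fun v hv => ?_, fun e he => ?_, ?_⟩
    · rw [coeff_smul, smul_eq_mul] at hv
      exact hf2 v (right_ne_zero_of_mul hv)
    · rw [map_smul, hf3 e he]
    · have h : zv (c • f) = c • zv f := by
        unfold zv
        rw [Finset.smul_sum]
        exact Finset.sum_congr rfl fun i _ => by rw [Derivation.map_smul, mul_smul_comm]
      rw [h, hf4, smul_zero]

/-- The multiplicity of `S_mu` in `S_(a,2) W ⊗ (the module of the size type k)`. -/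
noncomputable def n2 (m a : ℕ) (mu : Fin m → ℕ) (k : Multiset ℕ) : ℕ :=
  Module.finrank ℂ (PG m (Fin k.toList.length) (fun j => k.toList.get j) a mu)

open scoped Classical in
/-- **(A1)** upper bound: `b` points, the components of the size types with a letter `> a`. -/
def A1 : Prop := ∀ (a b m : ℕ) (mu : Fin m → ℕ),
  Module.finrank ℂ (TI b (∑ i, mu i) m mu) ≤ Module.finrank ℂ (TI b a m mu) +
    ∑ K ∈ (PT (∑ i, mu i)).filter (fun K => ∃ x ∈ K, a < x), nn m mu K

open scoped Classical in
/-- **(A2)** lower bound: `a` points, all size types with a letter `> b` and at most `a / 3`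
letters (each letter `Y` is replaced by `y + y' - 2 y''`). -/
def A2 : Prop := ∀ (a b m : ℕ) (mu : Fin m → ℕ), b ≤ ∑ i, mu i →
  Module.finrank ℂ (TI a b m mu) +
    ∑ K ∈ (PT (∑ i, mu i)).filter (fun K => (∃ x ∈ K, b < x) ∧ 3 * Multiset.card K ≤ a),
      nn m mu K ≤ Module.finrank ℂ (TI a (∑ i, mu i) m mu)

open scoped Classical in
/-- **(A4)** `c + 1` points against `c` points: the norm map `∏ i, (q_i · ∂_z) Q` on the size types
with a letter `c + 1` and, jointly, `∑ j, ∏ i ≠ j, (q_i · ∂_z) G(v = q_j)`, `q_i` the centred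
points. -/
def A4 : Prop := ∀ (c h m : ℕ) (mu : Fin m → ℕ), 10 * h ≤ c → 100 ≤ c →
  Module.finrank ℂ (TI c (∑ i, mu i) m mu) +
      ∑ K ∈ (PT (∑ i, mu i)).filter (LetK h (c + 1)), nn m mu K +
      ∑ k ∈ (PT (∑ i, mu i - (c + 2))).filter (Good h), n2 m c mu k ≤
    Module.finrank ℂ (TI (c + 1) (∑ i, mu i) m mu)

open scoped Classical in
/-- **(ASM)** the reduction. -/
def Red : Prop := ∀ (a b h m : ℕ) (mu : Fin m → ℕ), a < b → 10 * h ≤ a → 100 ≤ a →
  ∑ K ∈ (PT (∑ i, mu i)).filter (ErrK h a), nn m mu K ≤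
    ∑ k ∈ (PT (∑ i, mu i - (a + 2))).filter (Good h), n2 m a mu k →
  Module.finrank ℂ (TI a b m mu) ≤ Module.finrank ℂ (TI b a m mu)

/-- **(B0)** transport for `n2`. -/
def TransG : Prop := ∀ (m : ℕ) (σ : Type) [Fintype σ] (d : σ → ℕ) (a : ℕ) (mu : Fin m → ℕ),
  Module.finrank ℂ (PG m σ d a mu) = n2 m a mu (Finset.univ.val.map d)

end Vale.Agent.P181.O2
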