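import Vale.Agent.P181.O2.Defs
import Vale.Agent.P181.O2.Cnt

set_option autoImplicit false

/-!
# P181, O2: the lower bound of the gain by coloured states
-/

open MvPolynomial

namespace Vale.Agent.P181.O2

open Vale.Agent.P181.SZ (nn PT tl)

open scoped Classical in
/-- **(B2)** `z` is the strip letter of everything:
`z_0 ^ (a - t) P(v_u := z_0 v_u - z_u v_0; x_u := z_0 x_u - z_u x_0)` times the row two monomials. -/
def B2 : Prop := ∀ (m a : ℕ) (mu : Fin (m + 1) → ℕ) (k : Multiset ℕ), (∀ x ∈ k, 0 < x) →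
  2 ≤ ∑ i, tl mu i → ∑ i, tl mu i ≤ a → a ≤ mu 0 →
  ∑ U ∈ (US (mu 0 - a) (∑ i, tl mu i - 2)).filter (fun U => szs U = k), cc2 m (tl mu) U ≤
    n2 (m + 1) a mu k

end Vale.Agent.P181.O2
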