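import Vale.Agent.P181.O2.Defs

set_option autoImplicit false

/-!
# P181, O2: the reduction
-/

open MvPolynomial

namespace Vale.Agent.P181.O2

open Vale.Agent.P181.T4 (HW)
open Vale.Agent.P181.SZ (nn PT PK TI tl mem_TI)

/-- Degrees are at most `w`. -/
lemma TI_le (a b m : ℕ) (mu : Fin m → ℕ) : TI a b m mu ≤ TI a (∑ i, mu i) m mu := by
  intro f hf
  obtain ⟨h1, h2, h3, h4⟩ := mem_TI.1 hf
  refine mem_TI.2 ⟨h1, h2, fun v hv j => ?_, h4⟩
  have h5 : ∑ i, ∑ j, v (i, j) = ∑ i, mu i := Finset.sum_congr rfl fun i _ => h1.1 v hv i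
  rw [← h5]
  exact Finset.sum_le_sum fun i _ =>
    Finset.single_le_sum (f := fun j => v (i, j)) (fun _ _ => Nat.zero_le _) (Finset.mem_univ j)

lemma le_of_mem_PT {w : ℕ} {K : Multiset ℕ} (hK : K ∈ PT w) {x : ℕ} (hx : x ∈ K) : x ≤ w := by
  classical
  rw [PT, Finset.mem_filter, Finset.mem_image] at hK
  obtain ⟨⟨p, -, hp⟩, -⟩ := hK
  rw [← p.parts_sum, hp]
  exact Multiset.le_sum_of_mem hx

open scoped Classical in
/-- **(RED)** -/
theorem red (h1 : A1) (h2 : A2) (h4 : A4) : Red := by
  intro a b h m mu hab hh ha hE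
  set w := ∑ i, mu i with hw
  have e1 := h1 a b m mu
  rw [← hw] at e1
  have e2 : Module.finrank ℂ (TI a b m mu) +
      ∑ K ∈ (PT w).filter (fun K => (∃ x ∈ K, b < x) ∧ 3 * Multiset.card K ≤ a), nn m mu K ≤
      Module.finrank ℂ (TI a w m mu) := by
    rcases le_or_gt b w with hb | hb
    · exact h2 a b m mu hb
    · have h5 : ∑ K ∈ (PT w).filter (fun K => (∃ x ∈ K, b < x) ∧ 3 * Multiset.card K ≤ a),
          nn m mu K = 0 := by
        refine Finset.sum_eq_zero fun K hK => ?_
        rw [Finset.mem_filter] at hK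
        obtain ⟨hK1, ⟨x, hx, hbx⟩, -⟩ := hK
        have := le_of_mem_PT hK1 hx
        omega
      rw [h5, add_zero]
      exact Submodule.finrank_mono (TI_le a b m mu)
  -- the chain
  have e3 : ∀ n : ℕ, 1 ≤ n → Module.finrank ℂ (TI a w m mu) +
      ∑ c ∈ Finset.range n, ∑ K ∈ (PT w).filter (LetK h (a + c + 1)), nn m mu K +
      ∑ k ∈ (PT (w - (a + 2))).filter (Good h), n2 m a mu k ≤
      Module.finrank ℂ (TI (a + n) w m mu) := by
    intro n hn
    induction n, hn using Nat.le_induction with
    | base =>
      have := h4 a h m mu hh ha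
      rw [← hw] at this
      simpa using this
    | succ n hn ih =>
      have h5 := h4 (a + n) h m mu (by omega) (by omega)
      rw [← hw] at h5
      rw [Finset.sum_range_succ]
      have h6 : Module.finrank ℂ (TI (a + (n + 1)) w m mu) =
          Module.finrank ℂ (TI (a + n + 1) w m mu) := by rw [add_assoc]
      rw [h6]
      omega
  have e4 := e3 (b - a) (by omega)
  rw [show a + (b - a) = b by omega] at e4
  have e5 : ∑ K ∈ (PT w).filter (fun K => ∃ x ∈ K, a < x), nn m mu K ≤
      ∑ K ∈ (PT w).filter (fun K => (∃ x ∈ K, b < x) ∧ 3 * Multiset.card K ≤ a), nn m mu K +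
      ∑ c ∈ Finset.range (b - a), ∑ K ∈ (PT w).filter (LetK h (a + c + 1)), nn m mu K +
      ∑ K ∈ (PT w).filter (ErrK h a), nn m mu K := by
    simp only [Finset.sum_filter]
    rw [Finset.sum_comm, ← Finset.sum_add_distrib, ← Finset.sum_add_distrib]
    refine Finset.sum_le_sum fun K _ => ?_
    by_cases hK : ∃ x ∈ K, a < x
    · rw [if_pos hK]
      by_cases hE : ErrK h a K
      · rw [if_pos hE]
        omega
      · obtain ⟨x, hx, hax⟩ := hK
        have hg : Good h (K.erase x) := by
          by_contra hg
          exact hE ⟨x, hx, hax, hg⟩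
        rcases lt_or_ge b x with hbx | hbx
        · rw [if_pos]
          · omega
          · refine ⟨⟨x, hx, hbx⟩, ?_⟩
            have h7 := hg.1
            rw [Multiset.card_erase_of_mem hx] at h7
            have h8 : Multiset.card K ≤ h + 1 := by
              have := Nat.pred_eq_sub_one (n := Multiset.card K)
              omega
            omega
        · have h7 : nn m mu K ≤ ∑ c ∈ Finset.range (b - a),
              if LetK h (a + c + 1) K then nn m mu K else 0 := by
            have h8 : (if LetK h (a + (x - a - 1) + 1) K then nn m mu K else 0) ≤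
                ∑ c ∈ Finset.range (b - a), if LetK h (a + c + 1) K then nn m mu K else 0 :=
              Finset.single_le_sum
                (f := fun c => if LetK h (a + c + 1) K then nn m mu K else 0)
                (fun _ _ => Nat.zero_le _) (Finset.mem_range.2 (by omega))
            rw [show a + (x - a - 1) + 1 = x by omega, if_pos ⟨hx, hg⟩] at h8
            exact h8
          omega
    · rw [if_neg hK]
      exact Nat.zero_le _
  omega

end Vale.Agent.P181.O2
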